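import Vale.Agent.P220.H446.Gen

/-!
# P220: exact Lagrangians which are conormal to the levels of a transnormal function
-/

open Set
open scoped ContDiff

namespace Vale.Agent.Results.P220.TransnormalLevels

open Vale.Agent.P220.R2.H57

/-- Let `Q` be a closed connected `n`-manifold (in a Euclidean space `E`), and let `f` be a smooth
function on `Q` with `‖∇f‖² = c² (1 - f²)` whose middle level `f = 0` is connected. Let `L` be a
closed exact Lagrangian of `T*Q` such that, over the points with `|f| < 1`, the covectors of `L`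
vanish on the levels of `f` (for instance, such that the levels of `f` are spanned by linear Killing
fields which preserve `L`). Then `L` is Hamiltonian isotopic to the zero section. -/
theorem result {E : Type} [NormedAddCommGroup E] [InnerProductSpace ℝ E] [FiniteDimensional ℝ E]
    {n : ℕ} {Q : Set E} (hQ : IsClosedManifold n Q) {f : E → ℝ} (hf : ContDiff ℝ ∞ f)
    {c : ℝ} (hc : 0 < c)
    (hT : ∀ q ∈ Q, ∃ w ∈ Tan Q q, (∀ v ∈ Tan Q q, fderiv ℝ f q v = inner ℝ w v) ∧
      ‖w‖ ^ 2 = c ^ 2 * (1 - f q ^ 2))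
    (hM : IsConnected {q | q ∈ Q ∧ f q = 0}) {L : Set (E × E)}
    (hL : IsClosedExactLagrangian n Q L)
    (h : (∀ z ∈ L, |f z.1| < 1 → ∀ v ∈ Tan Q z.1, fderiv ℝ f z.1 v = 0 →
        inner ℝ z.2 v = (0 : ℝ)) ∨
      (∀ q ∈ Q, |f q| < 1 → ∀ v ∈ Tan Q q, fderiv ℝ f q v = 0 →
        ∃ A : E →L[ℝ] E, (∀ x, inner ℝ (A x) x = (0 : ℝ)) ∧ A q = v ∧
          ∀ z ∈ L, (A z.1, A z.2) ∈ Tan L z)) :
    HamIsotopicToZero Q L := by
  refine Vale.Agent.P220.H446.main_gen hQ hf hc hT hM hL ?_
  rcases h with h | h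
  · exact h
  · intro z hz h1 v hv h2
    obtain ⟨A, hA, hAv, hAL⟩ := h z.1 (hL.sub hz).1 h1 v hv h2
    rw [← hAv]
    exact Vale.Agent.P220.R2.H180.T.moment_lin hL hA hAL hz

end Vale.Agent.Results.P220.TransnormalLevels
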